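import Crest.Agent.N250.Act.Box
import Crest.Agent.N250.Po.Pol

-- ▼ part N250/Mt/Flux
section

/-!
# Row 250, matching (helper74): uniqueness on the half cylinder, flux form, complex coefficients
-/

set_option autoImplicit false
open MeasureTheory Set Filter Topology
open scoped ComplexConjugate

noncomputable section

namespace Crest.Agent.N250.Mt

open Act

/-- closed half strip -/
def Hc (R : ℝ) : Set (ℝ × ℝ) := {q | R ≤ q.1 ∧ q.2 ∈ Icc 0 (2 * Real.pi)}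

/-- open half strip -/
def Ho (R : ℝ) : Set (ℝ × ℝ) := {q | R < q.1 ∧ q.2 ∈ Icc 0 (2 * Real.pi)}

theorem Ho_sub (R : ℝ) : Ho R ⊆ Hc R := fun _ hq => ⟨hq.1.le, hq.2⟩

/-- derivative in `x` -/
def Dx (R : ℝ) (f f' : ℝ × ℝ → ℂ) : Prop :=
  ∀ q ∈ Ho R, HasDerivAt (fun s => f (s, q.2)) (f' q) q.1

/-- derivative in `θ` -/
def Dy (R : ℝ) (f f' : ℝ × ℝ → ℂ) : Prop :=
  ∀ x, R < x → ∀ θ ∈ Ioo 0 (2 * Real.pi), HasDerivAt (fun θ => f (x, θ)) (f' (x, θ)) θ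

/-- periodicity -/
def Pe (R : ℝ) (f : ℝ × ℝ → ℂ) : Prop := ∀ x, R < x → f (x, 2 * Real.pi) = f (x, 0)

/-- the Gaussian weight -/
def Eg (x : ℝ) : ℝ := Real.exp (-x ^ 2 / 4)

/-- the Gaussian circle integrals of `φ` have lower limit `0` -/
def Lo (φ : ℝ × ℝ → ℝ) : Prop := ∀ ε : ℝ, 0 < ε → ∃ᶠ y in atTop,
  ∫⁻ θ in Ioc 0 (2 * Real.pi), ENNReal.ofReal (Eg y * φ (y, θ)) ≤ ENNReal.ofReal ε

theorem Lo.mono {φ ψ : ℝ × ℝ → ℝ} {R c : ℝ} (h : Lo φ) (hc : 0 < c)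
    (hψ : ∀ q ∈ Ho R, ψ q ≤ c * φ q) : Lo ψ := by
  intro ε hε
  refine ((h (ε / c) (by positivity)).and_eventually (eventually_gt_atTop R)).mono fun y hy => ?_
  calc _ ≤ ∫⁻ θ in Ioc 0 (2 * Real.pi), ENNReal.ofReal c * ENNReal.ofReal (Eg y * φ (y, θ)) := by
        refine setLIntegral_mono' measurableSet_Ioc fun θ hθ => ?_
        rw [← ENNReal.ofReal_mul hc.le, mul_left_comm]
        exact ENNReal.ofReal_le_ofReal (mul_le_mul_of_nonneg_left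
          (hψ (y, θ) ⟨hy.2, Ioc_subset_Icc_self hθ⟩) (Real.exp_pos _).le)
    _ ≤ ENNReal.ofReal c * ENNReal.ofReal (ε / c) := by
        rw [lintegral_const_mul' _ _ ENNReal.ofReal_ne_top]
        exact mul_le_mul_right hy.1 _
    _ = _ := by rw [← ENNReal.ofReal_mul hc.le, mul_div_cancel₀ _ hc.ne']


theorem lo_of_lint {φ : ℝ × ℝ → ℝ} {R : ℝ} (hc : ContinuousOn φ (Ho R))
    (h : ∫⁻ q in Ho R, ENNReal.ofReal (Eg q.1 * φ q) ≠ ⊤) : Lo φ := by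
  intro ε hε
  by_contra hn
  rw [not_frequently] at hn
  obtain ⟨Y, hY⟩ := eventually_atTop.1 (hn.and (eventually_gt_atTop R))
  have s1 : Ici Y ×ˢ Ioc 0 (2 * Real.pi) ⊆ Ho R := fun q hq =>
    ⟨(hY _ hq.1).2, Ioc_subset_Icc_self hq.2⟩
  have m1 : AEMeasurable (fun q : ℝ × ℝ => ENNReal.ofReal (Eg q.1 * φ q))
      ((volume.restrict (Ici Y)).prod (volume.restrict (Ioc 0 (2 * Real.pi)))) := by
    rw [Measure.prod_restrict]
    exact (ContinuousOn.aemeasurable (ContinuousOn.mul (by unfold Eg; fun_prop) (hc.mono s1))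
      (measurableSet_Ici.prod measurableSet_Ioc)).ennreal_ofReal
  refine h (top_unique (le_trans ?_ (lintegral_mono_set s1)))
  rw [Measure.volume_eq_prod, ← Measure.prod_restrict, lintegral_prod _ m1]
  refine le_trans ?_ (setLIntegral_mono' (f := fun _ => ENNReal.ofReal ε) measurableSet_Ici
    fun y hy => (not_le.1 (hY y hy).1).le)
  rw [setLIntegral_const, Real.volume_Ici, ENNReal.mul_top (by simpa using hε)]

/-- the data of the uniqueness theorem: `∂ₓ F₁ - x F₁ / 2 + ∂_θ F₂` is of lower order,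
`F₁ ≈ ∂ₓ d`, `F₂ ≈ ∂_θ d / 2` -/
structure Flux (R C : ℝ) (d P T F₁ F₂ F₁' F₂' : ℝ × ℝ → ℂ) : Prop where
  cd : ContinuousOn d (Hc R)
  cF : ContinuousOn F₁ (Hc R)
  cP : ContinuousOn P (Ho R)
  cT : ContinuousOn T (Ho R)
  c₂ : ContinuousOn F₂ (Ho R)
  c₁' : ContinuousOn F₁' (Ho R)
  c₂' : ContinuousOn F₂' (Ho R)
  dP : Dx R d P
  dT : Dy R d T
  d₁ : Dx R F₁ F₁'
  d₂ : Dy R F₂ F₂'
  pd : Pe R d
  p₂ : Pe R F₂
  bd : ∀ θ ∈ Icc 0 (2 * Real.pi), d (R, θ) = 0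
  b₁ : ∀ q ∈ Ho R, ‖F₁ q - P q‖ ≤ (‖P q‖ + ‖T q‖) / 50 + C * ‖d q‖
  b₂ : ∀ q ∈ Ho R, ‖F₂ q - T q / 2‖ ≤ (‖P q‖ + ‖T q‖) / 50 + C * ‖d q‖
  eq : ∀ q ∈ Ho R, ‖F₁' q - q.1 / 2 * F₁ q + F₂' q‖ ≤
    (q.1 / 100 + C) * (‖P q‖ + ‖T q‖) + C * (1 + q.1) * ‖d q‖
  gr : Lo fun q => ‖d q‖ * ‖F₁ q‖

theorem re_ge (z : ℂ) {b : ℝ} (h : ‖z‖ ≤ b) : -b ≤ z.re :=
  (neg_le_neg h).trans (neg_le_of_abs_le (Complex.abs_re_le_norm z))

theorem conj_mul_re (z : ℂ) : (conj z * z).re = ‖z‖ ^ 2 := by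
  rw [Complex.conj_mul', ← Complex.ofReal_pow, Complex.ofReal_re]

/-- the pointwise inequality -/
theorem pt {x C : ℝ} (h1 : 1000 ≤ x) (h2 : 1000 * C ≤ x) {d P T F₁ F₂ g : ℂ}
    (b₁ : ‖F₁ - P‖ ≤ (‖P‖ + ‖T‖) / 50 + C * ‖d‖) (b₂ : ‖F₂ - T / 2‖ ≤ (‖P‖ + ‖T‖) / 50 + C * ‖d‖)
    (b₃ : ‖g‖ ≤ (x / 100 + C) * (‖P‖ + ‖T‖) + C * (1 + x) * ‖d‖) :
    ‖d‖ ^ 2 ≤ (conj d * g + conj P * F₁ + conj T * F₂ -
      (1 / 16 : ℂ) * ((1 - x ^ 2 / 2) * (conj d * d) + x * (conj P * d + conj d * P))).re := by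
  set u := ‖d‖
  set p := ‖P‖
  set t := ‖T‖
  have hu : 0 ≤ u := norm_nonneg _
  have hp : 0 ≤ p := norm_nonneg _
  have ht : 0 ≤ t := norm_nonneg _
  have e : conj d * g + conj P * F₁ + conj T * F₂ -
      (1 / 16 : ℂ) * ((1 - x ^ 2 / 2) * (conj d * d) + x * (conj P * d + conj d * P)) =
      conj d * g + conj P * P + conj P * (F₁ - P) + ((1 / 2 : ℝ) : ℂ) * (conj T * T) +
      conj T * (F₂ - T / 2) + (((x ^ 2 / 2 - 1) / 16 : ℝ) : ℂ) * (conj d * d) +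
      -((x / 16 : ℝ) : ℂ) * (conj P * d + conj d * P) := by
    push_cast; ring
  have a1 : -(u * ((x / 100 + C) * (p + t) + C * (1 + x) * u)) ≤ (conj d * g).re :=
    re_ge _ (by rw [norm_mul, Complex.norm_conj]; gcongr)
  have a2 : -(p * ((p + t) / 50 + C * u)) ≤ (conj P * (F₁ - P)).re :=
    re_ge _ (by rw [norm_mul, Complex.norm_conj]; gcongr)
  have a3 : -(t * ((p + t) / 50 + C * u)) ≤ (conj T * (F₂ - T / 2)).re :=
    re_ge _ (by rw [norm_mul, Complex.norm_conj]; gcongr)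
  have a4 : -(x / 16 * (p * u + u * p)) ≤ (-((x / 16 : ℝ) : ℂ) * (conj P * d + conj d * P)).re :=
    re_ge _ (by
      rw [norm_mul, norm_neg, Complex.norm_real, Real.norm_of_nonneg (by linarith)]
      gcongr
      exact (norm_add_le _ _).trans (by simp only [norm_mul, Complex.norm_conj]; rfl))
  rw [e]
  simp only [Complex.add_re, Complex.re_ofReal_mul, conj_mul_re]
  set s := x * u with hs
  have s0 : 0 ≤ s := by positivity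
  have s1 : u ≤ s / 1000 := by rw [hs]; nlinarith
  have s2 : C * u ≤ s / 1000 := by rw [hs]; nlinarith
  have c1 : C * u * (p + t) ≤ s / 1000 * (p + t) := by gcongr
  have c2 : C * u * u ≤ s / 1000 * (s / 1000) := by gcongr
  have c3 : C * u * s ≤ s / 1000 * s := by gcongr
  have c4 : u ^ 2 ≤ (s / 1000) ^ 2 := by gcongr
  have e1 : u * ((x / 100 + C) * (p + t) + C * (1 + x) * u) =
      s * (p + t) / 100 + C * u * (p + t) + C * u * u + C * u * s := by rw [hs]; ring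
  have e2 : x / 16 * (p * u + u * p) = s * p / 8 := by rw [hs]; ring
  have e3 : (x ^ 2 / 2 - 1) / 16 * u ^ 2 = s ^ 2 / 32 - u ^ 2 / 16 := by rw [hs]; ring
  rw [e1] at a1
  rw [e2] at a4
  rw [e3]
  nlinarith [sq_nonneg (p - s / 7), sq_nonneg (t - s / 20), sq_nonneg (p - t)]

theorem hasDerivAt_Eg (x : ℝ) : HasDerivAt (fun s => (Eg s : ℂ)) (-(x / 2) * Eg x) x := by
  have h : HasDerivAt Eg (Real.exp (-x ^ 2 / 4) * (-(2 * x) / 4)) x := by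
    have := ((hasDerivAt_pow 2 x).neg.div_const 4).exp
    simp only [Pi.neg_apply, Nat.cast_ofNat, Nat.add_one_sub_one, pow_one] at this
    exact this
  convert h.ofReal_comp using 1
  simp only [Eg]
  push_cast
  ring

theorem cont_Eg : Continuous fun q : ℝ × ℝ => (Eg q.1 : ℂ) := by unfold Eg; fun_prop

variable {R C : ℝ} {d P T F₁ F₂ F₁' F₂' : ℝ × ℝ → ℂ}

theorem hd_conj {f : ℝ → ℂ} {f' : ℂ} {x : ℝ} (h : HasDerivAt f f' x) :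
    HasDerivAt (fun s => conj (f s)) (conj f') x := by
  simpa using h.star

theorem Flux.eq_zero (h : Flux R C d P T F₁ F₂ F₁' F₂') (h1 : 1000 ≤ R)
    (h2 : 1000 * C ≤ R) : ∀ q ∈ Hc R, d q = 0 := by
  set G : ℝ × ℝ → ℂ := fun q => Eg q.1 * (conj (d q) * F₁ q - (1 / 16 : ℂ) *
    (q.1 * (conj (d q) * d q))) with hG
  set G' : ℝ × ℝ → ℂ := fun q => Eg q.1 * (conj (d q) * (F₁' q - q.1 / 2 * F₁ q) +
    conj (P q) * F₁ q - (1 / 16 : ℂ) * ((1 - q.1 ^ 2 / 2) * (conj (d q) * d q) +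
      q.1 * (conj (P q) * d q + conj (d q) * P q))) with hG'
  set H : ℝ × ℝ → ℂ := fun q => Eg q.1 * (conj (d q) * F₂ q) with hH
  set H' : ℝ × ℝ → ℂ := fun q => Eg q.1 * (conj (T q) * F₂ q + conj (d q) * F₂' q) with hH'
  have cj : ∀ {f : ℝ × ℝ → ℂ} {s : Set (ℝ × ℝ)}, ContinuousOn f s →
      ContinuousOn (fun q => conj (f q)) s := fun hf => Complex.continuous_conj.comp_continuousOn hf
  have cx : Continuous fun q : ℝ × ℝ => (q.1 : ℂ) := by fun_prop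
  have cG : ContinuousOn G (Hc R) := cont_Eg.continuousOn.mul (((cj h.cd).mul h.cF).sub
    (continuousOn_const.mul (cx.continuousOn.mul ((cj h.cd).mul h.cd))))
  have sub := Ho_sub R
  have cd := h.cd.mono sub
  have cF := h.cF.mono sub
  have key : ∀ α β, R < α → α ≤ β →
      ∫ q in Rc α β, Eg q.1 * ‖d q‖ ^ 2 ≤ (OI β G).re - (OI α G).re := by
    intro α β hα hαβ
    have s1 : Rc α β ⊆ Ho R := fun q hq => ⟨hα.trans_le hq.1.1, hq.2⟩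
    have cG' : ContinuousOn G' (Rc α β) := (cont_Eg.continuousOn.mul
      ((((cj cd).mul (h.c₁'.sub ((cx.continuousOn.div_const _).mul cF))).add
        ((cj h.cP).mul cF)).sub (continuousOn_const.mul
      (((continuousOn_const.sub ((cx.continuousOn.pow 2).div_const _)).mul ((cj cd).mul cd)).add
        (cx.continuousOn.mul (((cj h.cP).mul cd).add ((cj cd).mul h.cP))))))).mono s1
    have cH : ContinuousOn H (Rc α β) := (cont_Eg.continuousOn.mul ((cj cd).mul h.c₂)).mono s1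
    have cH' : ContinuousOn H' (Rc α β) := (cont_Eg.continuousOn.mul
      (((cj h.cT).mul h.c₂).add ((cj cd).mul h.c₂'))).mono s1
    have e1 := II_div (f := fun q => G' q + H' q) (e := fun _ => 0) (G := G) (G' := G') (H := H)
      (H' := H') hαβ continuousOn_const (cG.mono (s1.trans sub)) cG' (fun s hs θ hθ => by
        have hs' : (s, θ) ∈ Ho R := ⟨hα.trans hs.1, hθ⟩
        have a1 := h.dP _ hs'
        have a2 := (hasDerivAt_Eg s).mul (((hd_conj a1).mul (h.d₁ _ hs')).sub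
          (((hasDerivAt_id s).ofReal_comp.mul ((hd_conj a1).mul a1)).const_mul (1 / 16 : ℂ)))
        refine (a2.congr_deriv ?_ :)
        simp only [hG', Pi.mul_apply, Pi.sub_apply, id]
        push_cast
        ring) cH cH' (fun s hs θ hθ => by
        have hs' : R < s := hα.trans_le hs.1
        exact (((hd_conj (h.dT _ hs' θ hθ)).mul (h.d₂ _ hs' θ hθ)).const_mul (Eg s : ℂ) :))
      (fun s hs => by
        simp only [hH, h.pd s (hα.trans_le hs.1), h.p₂ s (hα.trans_le hs.1)])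
      (fun _ _ => by ring)
    have i1 : IntegrableOn (fun q => G' q + H' q) (Rc α β) :=
      (cG'.add cH').integrableOn_compact (isCompact_Rc _ _)
    rw [II_zero, zero_add, II_eq (f := fun q => G' q + H' q) hαβ (cG'.add cH')] at e1
    rw [← Complex.sub_re, ← e1]
    have e2 := integral_re i1
    simp only [RCLike.re_to_complex] at e2
    rw [← e2]
    refine setIntegral_mono_on (ContinuousOn.integrableOn_compact (isCompact_Rc _ _) ?_) i1.re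
      (isCompact_Rc _ _).measurableSet fun q hq => ?_
    · exact ContinuousOn.mul (by unfold Eg; fun_prop) ((cd.mono s1).norm.pow 2)
    · have hq' := s1 hq
      have a1 := pt (h1.trans hq'.1.le) (h2.trans hq'.1.le) (h.b₁ q hq') (h.b₂ q hq') (h.eq q hq')
      have a2 : G' q + H' q = (Eg q.1 : ℂ) * (conj (d q) * (F₁' q - q.1 / 2 * F₁ q + F₂' q) +
          conj (P q) * F₁ q + conj (T q) * F₂ q - (1 / 16 : ℂ) * ((1 - q.1 ^ 2 / 2) *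
          (conj (d q) * d q) + q.1 * (conj (P q) * d q + conj (d q) * P q))) := by
        simp only [hG', hH']; ring
      rw [a2, Complex.re_ofReal_mul]
      exact mul_le_mul_of_nonneg_left a1 (Real.exp_pos _).le
  have pos : ∀ α β, 0 ≤ ∫ q in Rc α β, Eg q.1 * ‖d q‖ ^ 2 := fun α β =>
    integral_nonneg fun q => mul_nonneg (Real.exp_pos _).le (sq_nonneg _)
  have lo : ∀ α, R < α → 0 ≤ (OI α G).re := by
    intro α hα
    refine le_of_forall_pos_le_add fun ε hε => ?_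
    have a1 : ∀ᶠ s in 𝓝 R, ∀ θ ∈ Icc 0 (2 * Real.pi), (s, θ) ∈ Hc R →
        ‖G (s, θ)‖ < ε / (2 * Real.pi) := by
      refine isCompact_Icc.eventually_forall_of_forall_eventually fun θ hθ => ?_
      have a2 : ∀ᶠ z in 𝓝[Hc R] (R, θ), ‖G z‖ < ε / (2 * Real.pi) :=
        (cG (R, θ) ⟨le_refl R, hθ⟩).norm.eventually (gt_mem_nhds (by
          simp only [hG, h.bd θ hθ, map_zero, zero_mul, mul_zero, sub_zero, norm_zero]; positivity))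
      exact eventually_nhdsWithin_iff.1 a2
    obtain ⟨s, a2, a3⟩ := ((a1.filter_mono (nhdsWithin_le_nhds (s := Ioi R))).and
      (Ioo_mem_nhdsGT hα)).exists
    have a4 := re_ge _ (OI_le (f := G) (s := s) fun θ hθ => (a2 θ hθ ⟨a3.1.le, hθ⟩).le)
    rw [mul_div_cancel₀ _ (by positivity)] at a4
    linarith [key s α a3.1 a3.2.le, pos s α]
  have hi : ∀ β, R < β → (OI β G).re ≤ 0 := by
    intro β hβ
    refine le_of_forall_pos_le_add fun ε hε => ?_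
    obtain ⟨y, hM, hy⟩ := ((h.gr ε hε).and_eventually (eventually_ge_atTop β)).exists
    have hy' : R < y := hβ.trans_le hy
    have a1 := key β y hβ hy
    have sb : Rc y y ⊆ Hc R := fun q hq => ⟨hy'.le.trans hq.1.1, hq.2⟩
    have c2 : ContinuousOn (fun θ => Eg y * (‖d (y, θ)‖ * ‖F₁ (y, θ)‖)) (Icc 0 (2 * Real.pi)) :=
      continuousOn_const.mul ((ct (h.cd.mono sb) (left_mem_Icc.2 le_rfl)).norm.mul
        (ct (h.cF.mono sb) (left_mem_Icc.2 le_rfl)).norm)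
    have i2 := c2.intervalIntegrable_of_Icc (μ := volume) tp_pos
    have a3 : ∫ θ in (0 : ℝ)..(2 * Real.pi), Eg y * (‖d (y, θ)‖ * ‖F₁ (y, θ)‖) ≤ ε := by
      rw [← ENNReal.ofReal_le_ofReal_iff hε.le, intervalIntegral.integral_of_le tp_pos,
        ofReal_integral_eq_lintegral_ofReal i2.1 (Eventually.of_forall fun θ =>
          mul_nonneg (Real.exp_pos _).le (by positivity))]
      exact hM
    have a2 : (OI y G).re ≤ ε := by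
      have i1 := ii_t (cG.mono sb) (left_mem_Icc.2 le_rfl)
      have e2 := intervalIntegral.intervalIntegral_re i1
      simp only [RCLike.re_to_complex] at e2
      rw [OI, ← e2]
      refine (intervalIntegral.integral_mono_on tp_pos ⟨i1.1.re, i1.2.re⟩ i2 fun θ _ => ?_).trans a3
      simp only [hG, RCLike.re_to_complex, Complex.re_ofReal_mul, Complex.sub_re]
      have b1 : (conj (d (y, θ)) * F₁ (y, θ)).re ≤ ‖d (y, θ)‖ * ‖F₁ (y, θ)‖ :=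
        (Complex.re_le_norm _).trans (by rw [norm_mul, Complex.norm_conj])
      have b2 : 0 ≤ ((1 / 16 : ℂ) * (y * (conj (d (y, θ)) * d (y, θ)))).re := by
        have : (1 / 16 : ℂ) * (y * (conj (d (y, θ)) * d (y, θ))) =
          ((y / 16 : ℝ) : ℂ) * (conj (d (y, θ)) * d (y, θ)) := by push_cast; ring
        rw [this, Complex.re_ofReal_mul, conj_mul_re]
        exact mul_nonneg (by linarith) (sq_nonneg _)
      exact mul_le_mul_of_nonneg_left (by linarith) (Real.exp_pos _).le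
    linarith [pos β y]
  have z : ∀ x, R < x → ∀ θ ∈ Icc 0 (2 * Real.pi), d (x, θ) = 0 := by
    intro x hx θ hθ
    have s1 : Rc x (x + 1) ⊆ Ho R := fun q hq => ⟨hx.trans_le hq.1.1, hq.2⟩
    have c1 : ContinuousOn (fun q : ℝ × ℝ => Eg q.1 * ‖d q‖ ^ 2) (Rc x (x + 1)) :=
      ContinuousOn.mul (by unfold Eg; fun_prop) ((cd.mono s1).norm.pow 2)
    have a1 : ∫ q in Rc x (x + 1), Eg q.1 * ‖d q‖ ^ 2 = 0 := le_antisymm (by
      linarith [key x (x + 1) hx (by linarith), lo x hx, hi (x + 1) (by linarith)]) (pos _ _)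
    rw [setIntegral_eq_zero_iff_of_nonneg_ae (f := fun q : ℝ × ℝ => Eg q.1 * ‖d q‖ ^ 2)
      (Eventually.of_forall fun q =>
      mul_nonneg (Real.exp_pos _).le (sq_nonneg _))
      (c1.integrableOn_compact (isCompact_Rc _ _))] at a1
    have a2 := Measure.eqOn_of_ae_eq a1 c1 continuousOn_const (by
      rw [Rc, interior_prod_eq, closure_prod_eq, interior_Icc, interior_Icc,
        closure_Ioo (by linarith), closure_Ioo (by positivity)])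
      (show (x, θ) ∈ Rc x (x + 1) from ⟨⟨le_rfl, by linarith⟩, hθ⟩)
    simpa [Eg, (Real.exp_pos _).ne'] using a2
  rintro ⟨x, θ⟩ ⟨hx, hθ⟩
  rcases eq_or_lt_of_le (show R ≤ x from hx) with rfl | hx
  · exact h.bd θ hθ
  · exact z x hx θ hθ

end Crest.Agent.N250.Mt

end
end

-- ▼ part N250/Mt/Op
section

/-!
# Row 250, matching (helper74): non-divergence form and quasilinear operators
-/

set_option autoImplicit false
open MeasureTheory Set Filter Topology Metric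

noncomputable section

namespace Crest.Agent.N250.Mt

/-- the 2-jet `(f, f_x, f_θ, f_xx, f_xθ, f_θθ)` on the half strip, `C¹` up to `x = R` -/
structure Jt (R : ℝ) (f p q r m t : ℝ × ℝ → ℂ) : Prop where
  cf : ContinuousOn f (Hc R)
  cp : ContinuousOn p (Hc R)
  cq : ContinuousOn q (Hc R)
  cr : ContinuousOn r (Ho R)
  cm : ContinuousOn m (Ho R)
  ct : ContinuousOn t (Ho R)
  fx : Dx R f p
  fy : Dy R f q
  px : Dx R p r
  qx : Dx R q m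
  py : Dy R p m
  qy : Dy R q t
  pf : Pe R f
  pp : Pe R p
  pq : Pe R q

theorem Jt.sub {R : ℝ} {f p q r m t f' p' q' r' m' t' : ℝ × ℝ → ℂ} (h : Jt R f p q r m t)
    (h' : Jt R f' p' q' r' m' t') : Jt R (fun z => f z - f' z) (fun z => p z - p' z)
    (fun z => q z - q' z) (fun z => r z - r' z) (fun z => m z - m' z) (fun z => t z - t' z) :=
  ⟨h.cf.sub h'.cf, h.cp.sub h'.cp, h.cq.sub h'.cq, h.cr.sub h'.cr, h.cm.sub h'.cm, h.ct.sub h'.ct,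
    fun z hz => (h.fx z hz).sub (h'.fx z hz), fun x hx θ hθ => (h.fy x hx θ hθ).sub (h'.fy x hx θ hθ),
    fun z hz => (h.px z hz).sub (h'.px z hz), fun z hz => (h.qx z hz).sub (h'.qx z hz),
    fun x hx θ hθ => (h.py x hx θ hθ).sub (h'.py x hx θ hθ),
    fun x hx θ hθ => (h.qy x hx θ hθ).sub (h'.qy x hx θ hθ),
    fun x hx => by simp only [h.pf x hx, h'.pf x hx], fun x hx => by simp only [h.pp x hx, h'.pp x hx],
    fun x hx => by simp only [h.pq x hx, h'.pq x hx]⟩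

/-- a `C¹` coefficient -/
structure J1 (R : ℝ) (a ax ay : ℝ × ℝ → ℂ) : Prop where
  c : ContinuousOn a (Hc R)
  cx : ContinuousOn ax (Ho R)
  cy : ContinuousOn ay (Ho R)
  dx : Dx R a ax
  dy : Dy R a ay
  pe : Pe R a

theorem J1.add {R : ℝ} {a ax ay b bx by' : ℝ × ℝ → ℂ} (h : J1 R a ax ay) (h' : J1 R b bx by') :
    J1 R (fun z => a z + b z) (fun z => ax z + bx z) (fun z => ay z + by' z) :=
  ⟨h.c.add h'.c, h.cx.add h'.cx, h.cy.add h'.cy, fun z hz => (h.dx z hz).add (h'.dx z hz),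
    fun x hx θ hθ => (h.dy x hx θ hθ).add (h'.dy x hx θ hθ),
    fun x hx => by simp only [h.pe x hx, h'.pe x hx]⟩

theorem J1.mul {R : ℝ} {a ax ay b bx by' : ℝ × ℝ → ℂ} (h : J1 R a ax ay) (h' : J1 R b bx by') :
    J1 R (fun z => a z * b z) (fun z => ax z * b z + a z * bx z)
      (fun z => ay z * b z + a z * by' z) :=
  ⟨h.c.mul h'.c, (h.cx.mul (h'.c.mono (Ho_sub R))).add ((h.c.mono (Ho_sub R)).mul h'.cx),
    (h.cy.mul (h'.c.mono (Ho_sub R))).add ((h.c.mono (Ho_sub R)).mul h'.cy),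
    fun z hz => ((h.dx z hz).mul (h'.dx z hz) :),
    fun x hx θ hθ => ((h.dy x hx θ hθ).mul (h'.dy x hx θ hθ) :),
    fun x hx => by simp only [h.pe x hx, h'.pe x hx]⟩

/-- first order jets -/
abbrev W : Type := ℂ × ℂ × ℂ

theorem Jt.comp {R : ℝ} {f p q r m t : ℝ × ℝ → ℂ} (h : Jt R f p q r m t) {φ : W → ℂ}
    (hφ : ContDiff ℂ 1 φ) : J1 R (fun z => φ (f z, p z, q z))
      (fun z => fderiv ℂ φ (f z, p z, q z) (p z, r z, m z))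
      (fun z => fderiv ℂ φ (f z, p z, q z) (q z, m z, t z)) := by
  have c0 : ContinuousOn (fun z => ((f z, p z, q z) : W)) (Hc R) := h.cf.prodMk (h.cp.prodMk h.cq)
  have c1 := (hφ.continuous_fderiv one_ne_zero).comp_continuousOn (c0.mono (Ho_sub R))
  have d0 : ∀ j, HasFDerivAt φ ((fderiv ℂ φ j).restrictScalars ℝ) j := fun j =>
    ((hφ.differentiable one_ne_zero j).hasFDerivAt).restrictScalars ℝ
  exact ⟨hφ.continuous.comp_continuousOn c0,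
    c1.clm_apply ((h.cp.mono (Ho_sub R)).prodMk (h.cr.prodMk h.cm)),
    c1.clm_apply ((h.cq.mono (Ho_sub R)).prodMk (h.cm.prodMk h.ct)),
    fun z hz => ((d0 _).comp_hasDerivAt z.1 ((h.fx z hz).prodMk ((h.px z hz).prodMk (h.qx z hz))) :),
    fun x hx θ hθ => ((d0 _).comp_hasDerivAt θ ((h.fy x hx θ hθ).prodMk
      ((h.py x hx θ hθ).prodMk (h.qy x hx θ hθ))) :),
    fun x hx => by simp only [h.pf x hx, h.pp x hx, h.pq x hx]⟩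

/-- **uniqueness, non-divergence form** -/
theorem nd {R C : ℝ} {d p q r m t a ax ay b bx by' c cx cy : ℝ × ℝ → ℂ} (J : Jt R d p q r m t)
    (ha : J1 R a ax ay) (hb : J1 R b bx by') (hc : J1 R c cx cy)
    (bd : ∀ θ ∈ Icc 0 (2 * Real.pi), d (R, θ) = 0)
    (sm : ∀ z ∈ Ho R, ‖a z - 1‖ ≤ 1 / 100 ∧ ‖b z‖ ≤ 1 / 100 ∧ ‖c z - 1 / 2‖ ≤ 1 / 100 ∧
      ‖ax z‖ ≤ C ∧ ‖bx z‖ ≤ C ∧ ‖cy z‖ ≤ C)
    (eq : ∀ z ∈ Ho R, ‖a z * r z + b z * m z + c z * t z - z.1 / 2 * p z‖ ≤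
      (z.1 / 200 + C) * (‖p z‖ + ‖q z‖) + C * (1 + z.1) * ‖d z‖)
    (gr : Lo fun z => ‖d z‖ * (‖p z‖ + ‖q z‖))
    (h1 : 1000 ≤ R) (h2 : 3000 * C ≤ R) : ∀ z ∈ Hc R, d z = 0 := by
  have s := Ho_sub R
  have n1 : ∀ z ∈ Ho R, ‖a z * p z + b z * q z - p z‖ ≤ (‖p z‖ + ‖q z‖) / 100 := fun z hz => by
    obtain ⟨s1, s2, -⟩ := sm z hz
    rw [show a z * p z + b z * q z - p z = (a z - 1) * p z + b z * q z by ring]
    refine (norm_add_le _ _).trans ?_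
    rw [norm_mul, norm_mul]
    nlinarith [norm_nonneg (p z), norm_nonneg (q z)]
  refine Flux.eq_zero (C := 3 * C) (P := p) (T := q) (F₁ := fun z => a z * p z + b z * q z)
    (F₂ := fun z => c z * q z)
    (F₁' := fun z => (ax z * p z + a z * r z) + (bx z * q z + b z * m z))
    (F₂' := fun z => cy z * q z + c z * t z) ⟨J.cf, (ha.c.mul J.cp).add (hb.c.mul J.cq),
    J.cp.mono s, J.cq.mono s, (hc.c.mul J.cq).mono s,
    ((ha.cx.mul (J.cp.mono s)).add ((ha.c.mono s).mul J.cr)).add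
      ((hb.cx.mul (J.cq.mono s)).add ((hb.c.mono s).mul J.cm)),
    (hc.cy.mul (J.cq.mono s)).add ((hc.c.mono s).mul J.ct), J.fx, J.fy,
    fun z hz => (((ha.dx z hz).mul (J.px z hz)).add ((hb.dx z hz).mul (J.qx z hz)) :),
    fun x hx θ hθ => ((hc.dy x hx θ hθ).mul (J.qy x hx θ hθ) :), J.pf,
    fun x hx => by simp only [hc.pe x hx, J.pq x hx], bd, fun z hz => ?_, fun z hz => ?_,
    fun z hz => ?_, ?_⟩ h1 (by linarith)
  · have hC : 0 ≤ C := (norm_nonneg _).trans (sm z hz).2.2.2.1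
    nlinarith [n1 z hz, norm_nonneg (p z), norm_nonneg (q z), mul_nonneg hC (norm_nonneg (d z))]
  · obtain ⟨-, -, s3, s4, -⟩ := sm z hz
    have hC : 0 ≤ C := (norm_nonneg _).trans s4
    rw [show c z * q z - q z / 2 = (c z - 1 / 2) * q z by ring, norm_mul]
    nlinarith [norm_nonneg (p z), norm_nonneg (q z), mul_nonneg hC (norm_nonneg (d z))]
  · obtain ⟨-, -, -, s4, s5, s6⟩ := sm z hz
    have hC : 0 ≤ C := (norm_nonneg _).trans s4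
    have hx : 0 ≤ z.1 := by linarith [hz.1]
    rw [show ax z * p z + a z * r z + (bx z * q z + b z * m z) - z.1 / 2 * (a z * p z + b z * q z) +
      (cy z * q z + c z * t z) = (a z * r z + b z * m z + c z * t z - z.1 / 2 * p z) +
      (ax z * p z + bx z * q z + cy z * q z) +
      -((z.1 / 2 : ℝ) : ℂ) * (a z * p z + b z * q z - p z) by push_cast; ring]
    refine norm_add₃_le.trans ?_
    have a1 : ‖ax z * p z + bx z * q z + cy z * q z‖ ≤ C * ‖p z‖ + C * ‖q z‖ + C * ‖q z‖ :=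
      norm_add₃_le.trans (by simp only [norm_mul]; gcongr)
    have a2 : ‖-((z.1 / 2 : ℝ) : ℂ) * (a z * p z + b z * q z - p z)‖ ≤
        z.1 / 2 * ((‖p z‖ + ‖q z‖) / 100) := by
      rw [norm_mul, norm_neg, Complex.norm_real, Real.norm_of_nonneg (by linarith)]
      gcongr
      exact n1 z hz
    nlinarith [eq z hz, mul_nonneg hC (norm_nonneg (p z)), mul_nonneg hC (norm_nonneg (q z)),
      mul_nonneg (mul_nonneg hC (by linarith : 0 ≤ 1 + z.1)) (norm_nonneg (d z))]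
  · refine gr.mono two_pos (R := R) fun z hz => ?_
    have a1 : ‖a z * p z + b z * q z‖ ≤ 2 * (‖p z‖ + ‖q z‖) := by
      have := norm_le_norm_sub_add (a z * p z + b z * q z) (p z)
      linarith [n1 z hz, norm_nonneg (p z), norm_nonneg (q z)]
    linarith [mul_le_mul_of_nonneg_left a1 (norm_nonneg (d z))]

/-! ### quasilinear operators -/

theorem loc {φ : W → ℂ} (hφ : ContDiff ℂ 1 φ) (c₀ : W) {η : ℝ} (hη : 0 < η) :
    ∀ᶠ ε in 𝓝[>] (0 : ℝ), ∀ j ∈ closedBall c₀ ε,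
      ‖φ j - φ c₀‖ ≤ η ∧ ‖fderiv ℂ φ j - fderiv ℂ φ c₀‖ ≤ η := by
  have h1 : ∀ᶠ j in 𝓝 c₀, ‖φ j - φ c₀‖ ≤ η ∧ ‖fderiv ℂ φ j - fderiv ℂ φ c₀‖ ≤ η := by
    refine Eventually.and ?_ ?_
    · simpa only [dist_eq_norm] using (Metric.continuousAt_iff'.1 hφ.continuous.continuousAt η hη).mono
        fun _ h => h.le
    · simpa only [dist_eq_norm] using (Metric.continuousAt_iff'.1
        (hφ.continuous_fderiv one_ne_zero).continuousAt η hη).mono fun _ h => h.le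
  exact ((eventually_closedBall_subset h1).filter_mono nhdsWithin_le_nhds).mono fun _ h j hj => h hj

theorem mv {φ : W → ℂ} (hφ : ContDiff ℂ 1 φ) {c₀ : W} {ε η : ℝ} {T : W →L[ℂ] ℂ}
    (h : ∀ j ∈ closedBall c₀ ε, ‖fderiv ℂ φ j - T‖ ≤ η) {j j' : W} (hj : j ∈ closedBall c₀ ε)
    (hj' : j' ∈ closedBall c₀ ε) : ‖φ j' - φ j - T (j' - j)‖ ≤ η * ‖j' - j‖ :=
  (convex_closedBall c₀ ε).norm_image_sub_le_of_norm_fderiv_le'
    (fun x _ => hφ.differentiable one_ne_zero x) h hj hj'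

theorem norm_W (d p q : ℂ) : ‖((d, p, q) : W)‖ ≤ ‖d‖ + ‖p‖ + ‖q‖ := by
  simp only [Prod.norm_mk, max_le_iff]
  refine ⟨?_, ?_, ?_⟩ <;> linarith [norm_nonneg d, norm_nonneg p, norm_nonneg q]

/-- the operator `a f_xx + b f_xθ + c f_θθ + e - x g / 2` with coefficients depending on the 1-jet -/
structure Op (c₀ : W) where
  a : W → ℂ
  b : W → ℂ
  c : W → ℂ
  e : W → ℂ
  g : W → ℂ
  ha : ContDiff ℂ 1 a
  hb : ContDiff ℂ 1 b
  hc : ContDiff ℂ 1 c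
  he : ContDiff ℂ 1 e
  hg : ContDiff ℂ 1 g
  a0 : a c₀ = 1
  b0 : b c₀ = 0
  c0 : c c₀ = 1 / 2
  g0 : ∀ D, fderiv ℂ g c₀ D = D.2.1

namespace Op

variable {c₀ : W} (O : Op c₀)

/-- the operator -/
def Φ (x : ℂ) (j k : W) : ℂ := O.a j * k.1 + O.b j * k.2.1 + O.c j * k.2.2 + O.e j - x / 2 * O.g j

/-- its linearisation -/
def L (x : ℂ) (j k D K : W) : ℂ := O.a j * K.1 + O.b j * K.2.1 + O.c j * K.2.2 +
  (fderiv ℂ O.a j D * k.1 + fderiv ℂ O.b j D * k.2.1 + fderiv ℂ O.c j D * k.2.2 +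
    fderiv ℂ O.e j D) - x / 2 * fderiv ℂ O.g j D

theorem hasDerivAt (x : ℂ) (j k D K : W) :
    HasDerivAt (fun s : ℂ => O.Φ x (j + s • D) (k + s • K)) (O.L x j k D K) 0 := by
  have l : ∀ u v : W, HasDerivAt (fun s : ℂ => u + s • v) v 0 := fun u v => by
    simpa using ((hasDerivAt_id (0 : ℂ)).smul_const v).const_add u
  have c : ∀ {φ : W → ℂ}, ContDiff ℂ 1 φ →
      HasDerivAt (fun s : ℂ => φ (j + s • D)) (fderiv ℂ φ j D) 0 := fun {φ} hφ => by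
    have := (hφ.differentiable one_ne_zero (j + (0 : ℂ) • D)).hasFDerivAt.comp_hasDerivAt 0 (l j D)
    rw [zero_smul, add_zero] at this
    exact this
  have := (((((c O.ha).mul (l k K).fst).add ((c O.hb).mul (l k K).snd.fst)).add
    ((c O.hc).mul (l k K).snd.snd)).add (c O.he)).sub ((c O.hg).const_mul (x / 2))
  refine (this.congr_deriv ?_ :)
  simp only [L, zero_smul, add_zero]
  ring

/-- smallness of a jet -/
def Sm (c₀ : W) (ε C : ℝ) (j k : W) : Prop := ‖j - c₀‖ ≤ ε ∧ ‖k‖ ≤ C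

set_option maxHeartbeats 800000 in
/-- **matching** for a quasilinear operator -/
theorem mt : ∃ ε : ℝ, 0 < ε ∧ ∀ C : ℝ, ∃ R₁ : ℝ, ∀ R, R₁ ≤ R →
    ∀ {f₀ p₀ q₀ r₀ m₀ t₀ f₁ p₁ q₁ r₁ m₁ t₁ f₂ p₂ q₂ r₂ m₂ t₂ A Ax Ay B Bx By : ℝ × ℝ → ℂ},
    Jt R f₀ p₀ q₀ r₀ m₀ t₀ → Jt R f₁ p₁ q₁ r₁ m₁ t₁ → Jt R f₂ p₂ q₂ r₂ m₂ t₂ →
    J1 R A Ax Ay → J1 R B Bx By →
    (∀ z ∈ Ho R, ‖A z‖ + ‖B z‖ ≤ 2 ∧ ‖A z + B z - 1‖ ≤ ε ∧ ‖Ax z‖ ≤ C ∧ ‖Ay z‖ ≤ C ∧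
      ‖Bx z‖ ≤ C ∧ ‖By z‖ ≤ C) →
    (∀ z ∈ Ho R, Sm c₀ ε C (f₀ z, p₀ z, q₀ z) (r₀ z, m₀ z, t₀ z)) →
    (∀ z ∈ Ho R, (B z = 0 ∧ Bx z = 0 ∧ By z = 0) ∨
      (Sm c₀ ε C (f₁ z, p₁ z, q₁ z) (r₁ z, m₁ z, t₁ z) ∧
        Sm c₀ ε C (f₂ z, p₂ z, q₂ z) (r₂ z, m₂ z, t₂ z))) →
    (∀ θ ∈ Icc 0 (2 * Real.pi), f₂ (R, θ) = f₁ (R, θ)) →
    (Lo fun z => ‖f₂ z - f₁ z‖ * (‖p₂ z - p₁ z‖ + ‖q₂ z - q₁ z‖)) →
    (∀ z ∈ Ho R, A z * O.L z.1 (f₀ z, p₀ z, q₀ z) (r₀ z, m₀ z, t₀ z)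
        (f₂ z - f₁ z, p₂ z - p₁ z, q₂ z - q₁ z) (r₂ z - r₁ z, m₂ z - m₁ z, t₂ z - t₁ z) +
      B z * (O.Φ z.1 (f₂ z, p₂ z, q₂ z) (r₂ z, m₂ z, t₂ z) -
        O.Φ z.1 (f₁ z, p₁ z, q₁ z) (r₁ z, m₁ z, t₁ z)) = 0) →
    ∀ z ∈ Hc R, f₂ z = f₁ z := by
  have η0 : (0 : ℝ) < 1 / 400 := by norm_num
  obtain ⟨ε, ⟨⟨⟨⟨la, lb⟩, lc⟩, le⟩, lg⟩, hε⟩ := ((((((loc O.ha c₀ η0).and (loc O.hb c₀ η0)).and
    (loc O.hc c₀ η0)).and (loc O.he c₀ η0)).and (loc O.hg c₀ η0)).and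
    (Ioo_mem_nhdsGT (by norm_num : (0 : ℝ) < 1 / 200))).exists
  obtain ⟨K, K2, ka, kb, kc, ke⟩ : ∃ K : ℝ, 2 ≤ K ∧ ‖fderiv ℂ O.a c₀‖ ≤ K - 2 ∧
      ‖fderiv ℂ O.b c₀‖ ≤ K - 2 ∧ ‖fderiv ℂ O.c c₀‖ ≤ K - 2 ∧ ‖fderiv ℂ O.e c₀‖ ≤ K - 2 := by
    have n0 := norm_nonneg (fderiv ℂ O.a c₀)
    have n1 := norm_nonneg (fderiv ℂ O.b c₀)
    have n2 := norm_nonneg (fderiv ℂ O.c c₀)
    have n3 := norm_nonneg (fderiv ℂ O.e c₀)
    exact ⟨2 + ‖fderiv ℂ O.a c₀‖ + ‖fderiv ℂ O.b c₀‖ + ‖fderiv ℂ O.c c₀‖ + ‖fderiv ℂ O.e c₀‖,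
      by linarith, by linarith, by linarith, by linarith, by linarith⟩
  have fd : ∀ {φ : W → ℂ} {j : W}, ‖fderiv ℂ φ j - fderiv ℂ φ c₀‖ ≤ 1 / 400 →
      ‖fderiv ℂ φ c₀‖ ≤ K - 2 → ‖fderiv ℂ φ j‖ ≤ K := fun {φ j} h1 h2 => by
    linarith [norm_le_norm_sub_add (fderiv ℂ φ j) (fderiv ℂ φ c₀)]
  refine ⟨ε, hε.1, fun C => ?_⟩
  obtain ⟨N, hN⟩ : ∃ N : ℝ, N = (1 + ‖c₀‖ + |C|) * K := ⟨_, rfl⟩
  have c0 := norm_nonneg c₀
  have c1 := abs_nonneg C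
  have c2 := le_abs_self C
  have N1 : K ≤ N := by nlinarith
  refine ⟨max 1000 (3000 * (8 * N)), fun R hR f₀ p₀ q₀ r₀ m₀ t₀ f₁ p₁ q₁ r₁ m₁ t₁ f₂ p₂ q₂ r₂ m₂ t₂
    A Ax Ay B Bx By J₀ J₁ J₂ hA hB sA s₀ s₁ bd gr eq z hz => sub_eq_zero.1 ?_⟩
  have cf : ∀ {φ : W → ℂ}, ContDiff ℂ 1 φ → J1 R _ _ _ := fun {φ} hφ =>
    (hA.mul (J₀.comp hφ)).add (hB.mul (J₂.comp hφ))
  have mb : ∀ {j k : W}, Sm c₀ ε C j k → j ∈ closedBall c₀ ε := fun h => mem_closedBall_iff_norm.2 h.1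
  -- values of the coefficients
  have v : ∀ {φ : W → ℂ}, (∀ j ∈ closedBall c₀ ε, ‖φ j - φ c₀‖ ≤ 1 / 400) → ‖φ c₀‖ ≤ 1 →
      ∀ z ∈ Ho R, ‖A z * φ (f₀ z, p₀ z, q₀ z) + B z * φ (f₂ z, p₂ z, q₂ z) - φ c₀‖ ≤ 1 / 100 := by
    intro φ h1 h2 z hz
    obtain ⟨a1, a2, -⟩ := sA z hz
    have b1 := h1 _ (mb (s₀ z hz))
    have b2 : ‖B z * (φ (f₂ z, p₂ z, q₂ z) - φ c₀)‖ ≤ ‖B z‖ * (1 / 400) := by
      rcases s₁ z hz with h | h
      · simp [h.1]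
      · rw [norm_mul]; gcongr; exact h1 _ (mb h.2)
    rw [show A z * φ (f₀ z, p₀ z, q₀ z) + B z * φ (f₂ z, p₂ z, q₂ z) - φ c₀ =
      A z * (φ (f₀ z, p₀ z, q₀ z) - φ c₀) + B z * (φ (f₂ z, p₂ z, q₂ z) - φ c₀) +
      (A z + B z - 1) * φ c₀ by ring]
    refine norm_add₃_le.trans ?_
    have b3 : ‖A z * (φ (f₀ z, p₀ z, q₀ z) - φ c₀)‖ ≤ ‖A z‖ * (1 / 400) := by rw [norm_mul]; gcongr
    have b4 : ‖(A z + B z - 1) * φ c₀‖ ≤ ε * 1 := by rw [norm_mul]; gcongr; exact hε.1.le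
    linarith [hε.2]
  -- derivatives of the coefficients
  have w : ∀ {φ : W → ℂ} {j k : W} (α α' : ℂ) (u : W), Sm c₀ ε C j k → ‖α‖ ≤ 2 → ‖α'‖ ≤ C →
      (∀ j ∈ closedBall c₀ ε, ‖φ j - φ c₀‖ ≤ 1 / 400 ∧ ‖fderiv ℂ φ j - fderiv ℂ φ c₀‖ ≤ 1 / 400) →
      ‖φ c₀‖ ≤ 1 → ‖fderiv ℂ φ c₀‖ ≤ K - 2 → ‖u‖ ≤ max ‖j‖ ‖k‖ →
      ‖α' * φ j + α * fderiv ℂ φ j u‖ ≤ 4 * N := by
    intro φ j k α α' u h h1 h2 h3 h4 h5 h6
    have b1 : ‖φ j‖ ≤ K := by linarith [norm_le_norm_sub_add (φ j) (φ c₀), (h3 j (mb h)).1]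
    have b2 : ‖u‖ ≤ 1 + ‖c₀‖ + |C| := h6.trans (max_le
      (by linarith [norm_le_norm_sub_add j c₀, h.1, hε.2]) (by linarith [h.2]))
    have b3 : ‖fderiv ℂ φ j u‖ ≤ K * (1 + ‖c₀‖ + |C|) :=
      (ContinuousLinearMap.le_opNorm _ _).trans (by gcongr; exact fd (h3 j (mb h)).2 h5)
    refine (norm_add_le _ _).trans ?_
    rw [norm_mul, norm_mul]
    have b4 : ‖α'‖ * ‖φ j‖ ≤ |C| * K := by gcongr; linarith
    have b5 : ‖α‖ * ‖fderiv ℂ φ j u‖ ≤ 2 * (K * (1 + ‖c₀‖ + |C|)) := by gcongr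
    nlinarith
  have wx : ∀ f p q r m t : ℂ, ‖((p, r, m) : W)‖ ≤ max ‖((f, p, q) : W)‖ ‖((r, m, t) : W)‖ :=
    fun f p q r m t => by
      simp only [Prod.norm_mk, max_le_iff]
      simp only [le_max_iff, le_refl, true_or, or_true, and_self]
  have wy : ∀ f p q r m t : ℂ, ‖((q, m, t) : W)‖ ≤ max ‖((f, p, q) : W)‖ ‖((r, m, t) : W)‖ :=
    fun f p q r m t => by
      simp only [Prod.norm_mk, max_le_iff]
      simp only [le_max_iff, le_refl, true_or, or_true, and_self]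
  have w2 : ∀ {φ : W → ℂ} (z : ℝ × ℝ) (α' β' : ℂ) (u u' : W), z ∈ Ho R → ‖α'‖ ≤ C → ‖β'‖ ≤ C →
      (B z = 0 ∧ Bx z = 0 ∧ By z = 0 → β' = 0) →
      (∀ j ∈ closedBall c₀ ε, ‖φ j - φ c₀‖ ≤ 1 / 400 ∧ ‖fderiv ℂ φ j - fderiv ℂ φ c₀‖ ≤ 1 / 400) →
      ‖φ c₀‖ ≤ 1 → ‖fderiv ℂ φ c₀‖ ≤ K - 2 →
      ‖u‖ ≤ max ‖((f₀ z, p₀ z, q₀ z) : W)‖ ‖((r₀ z, m₀ z, t₀ z) : W)‖ →
      ‖u'‖ ≤ max ‖((f₂ z, p₂ z, q₂ z) : W)‖ ‖((r₂ z, m₂ z, t₂ z) : W)‖ →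
      ‖(α' * φ (f₀ z, p₀ z, q₀ z) + A z * fderiv ℂ φ (f₀ z, p₀ z, q₀ z) u) +
        (β' * φ (f₂ z, p₂ z, q₂ z) + B z * fderiv ℂ φ (f₂ z, p₂ z, q₂ z) u')‖ ≤ 8 * N := by
    intro φ z α' β' u u' hz h1 h2 h0 h3 h4 h5 h6 h7
    have a1 := (sA z hz).1
    have b1 := w (A z) α' u (s₀ z hz) (by linarith [norm_nonneg (B z)]) h1 h3 h4 h5 h6
    refine (norm_add_le _ _).trans ?_
    rcases s₁ z hz with h | h
    · rw [h0 h, h.1]; simp only [zero_mul, add_zero, norm_zero]; linarith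
    · linarith [w (B z) β' u' h.2 (by linarith [norm_nonneg (A z)]) h2 h3 h4 h5 h7]
  refine nd (C := 8 * N) (J₂.sub J₁) (cf O.ha) (cf O.hb) (cf O.hc)
    (fun θ hθ => sub_eq_zero.2 (bd θ hθ)) (fun z hz => ⟨?_, ?_, ?_, ?_, ?_, ?_⟩) (fun z hz => ?_) gr
    ((le_max_left _ _).trans hR) ((le_max_right _ _).trans hR) z hz
  · simpa only [O.a0] using v (fun j hj => (la j hj).1) (by simp [O.a0]) z hz
  · simpa only [O.b0, sub_zero] using v (fun j hj => (lb j hj).1) (by simp [O.b0]) z hz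
  · simpa only [O.c0] using v (fun j hj => (lc j hj).1) (by norm_num [O.c0]) z hz
  · exact w2 z _ _ _ _ hz (sA z hz).2.2.1 (sA z hz).2.2.2.2.1 (fun h => h.2.1) la (by simp [O.a0])
      ka (wx _ _ _ _ _ _) (wx _ _ _ _ _ _)
  · exact w2 z _ _ _ _ hz (sA z hz).2.2.1 (sA z hz).2.2.2.2.1 (fun h => h.2.1) lb (by simp [O.b0])
      kb (wx _ _ _ _ _ _) (wx _ _ _ _ _ _)
  · exact w2 z _ _ _ _ hz (sA z hz).2.2.2.1 (sA z hz).2.2.2.2.2 (fun h => h.2.2) lc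
      (by norm_num [O.c0]) kc (wy _ _ _ _ _ _) (wy _ _ _ _ _ _)
  · have e := eq z hz
    obtain ⟨a1, a2, -⟩ := sA z hz
    have hx : 0 ≤ z.1 := by linarith [hz.1, (le_max_left _ _).trans hR]
    set j₀ : W := (f₀ z, p₀ z, q₀ z)
    set j₁ : W := (f₁ z, p₁ z, q₁ z)
    set j₂ : W := (f₂ z, p₂ z, q₂ z)
    set D : W := (f₂ z - f₁ z, p₂ z - p₁ z, q₂ z - q₁ z) with hD
    have eD : j₂ - j₁ = D := rfl
    set X₀ := fderiv ℂ O.a j₀ D * r₀ z + fderiv ℂ O.b j₀ D * m₀ z + fderiv ℂ O.c j₀ D * t₀ z +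
      fderiv ℂ O.e j₀ D with hX₀
    set X₁ := (O.a j₂ - O.a j₁) * r₁ z + (O.b j₂ - O.b j₁) * m₁ z + (O.c j₂ - O.c j₁) * t₁ z +
      (O.e j₂ - O.e j₁) with hX₁
    set Y₀ := fderiv ℂ O.g j₀ D - fderiv ℂ O.g c₀ D with hY₀
    set Y₁ := O.g j₂ - O.g j₁ - fderiv ℂ O.g c₀ D with hY₁
    have four : ∀ {u₁ u₂ u₃ u₄ : ℂ} {k : W}, ‖k‖ ≤ C → ‖u₁‖ ≤ K * ‖D‖ → ‖u₂‖ ≤ K * ‖D‖ →
        ‖u₃‖ ≤ K * ‖D‖ → ‖u₄‖ ≤ K * ‖D‖ → ‖u₁ * k.1 + u₂ * k.2.1 + u₃ * k.2.2 + u₄‖ ≤ 4 * N * ‖D‖ := by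
      intro u₁ u₂ u₃ u₄ k hk h1 h2 h3 h4
      have k1 : ‖k.1‖ ≤ |C| := by linarith [norm_fst_le k]
      have k2 : ‖k.2.1‖ ≤ |C| := by linarith [norm_fst_le k.2, norm_snd_le k]
      have k3 : ‖k.2.2‖ ≤ |C| := by linarith [norm_snd_le k.2, norm_snd_le k]
      have k4 : ‖u₁ * k.1 + u₂ * k.2.1 + u₃ * k.2.2‖ ≤
          K * ‖D‖ * |C| + K * ‖D‖ * |C| + K * ‖D‖ * |C| :=
        norm_add₃_le.trans (by simp only [norm_mul]; gcongr)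
      have k5 : 0 ≤ K * ‖D‖ := by positivity
      have k6 : N * ‖D‖ = (1 + ‖c₀‖ + |C|) * (K * ‖D‖) := by rw [hN]; ring
      nlinarith [norm_add_le (u₁ * k.1 + u₂ * k.2.1 + u₃ * k.2.2) u₄, mul_nonneg c0 k5,
        mul_nonneg c1 k5]
    have op : ∀ {φ : W → ℂ}, ‖fderiv ℂ φ j₀‖ ≤ K → ‖fderiv ℂ φ j₀ D‖ ≤ K * ‖D‖ := fun h =>
      (ContinuousLinearMap.le_opNorm _ _).trans (by gcongr)
    have m0 := mb (s₀ z hz)
    have b1 : ‖X₀‖ ≤ 4 * N * ‖D‖ := four (k := (r₀ z, m₀ z, t₀ z)) (s₀ z hz).2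
      (op (fd (la _ m0).2 ka)) (op (fd (lb _ m0).2 kb))
      (op (fd (lc _ m0).2 kc)) (op (fd (le _ m0).2 ke))
    have b2 : ‖Y₀‖ ≤ 1 / 400 * ‖D‖ := by
      rw [hY₀, ← sub_apply]
      exact (ContinuousLinearMap.le_opNorm _ _).trans (by gcongr; exact (lg _ m0).2)
    have b3 : ‖B z * X₁‖ ≤ ‖B z‖ * (4 * N * ‖D‖) ∧ ‖B z * Y₁‖ ≤ ‖B z‖ * (1 / 400 * ‖D‖) := by
      rcases s₁ z hz with h | h
      · simp [h.1]
      · have lp : ∀ {φ : W → ℂ}, ContDiff ℂ 1 φ → (∀ j ∈ closedBall c₀ ε, ‖fderiv ℂ φ j‖ ≤ K) →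
            ‖φ j₂ - φ j₁‖ ≤ K * ‖D‖ := fun {φ} hφ h1 => by
          have := mv hφ (T := 0) (fun j hj => by rw [sub_zero]; exact h1 j hj) (mb h.1) (mb h.2)
          rw [zero_apply, sub_zero] at this
          exact this
        rw [norm_mul, norm_mul]
        constructor
        · gcongr
          exact four (k := (r₁ z, m₁ z, t₁ z)) h.1.2
            (lp O.ha fun j hj => fd (la j hj).2 ka)
            (lp O.hb fun j hj => fd (lb j hj).2 kb)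
            (lp O.hc fun j hj => fd (lc j hj).2 kc)
            (lp O.he fun j hj => fd (le j hj).2 ke)
        · gcongr
          exact mv O.hg (fun j hj => (lg j hj).2) (mb h.1) (mb h.2)
    have id : (A z * O.a j₀ + B z * O.a j₂) * (r₂ z - r₁ z) +
        (A z * O.b j₀ + B z * O.b j₂) * (m₂ z - m₁ z) +
        (A z * O.c j₀ + B z * O.c j₂) * (t₂ z - t₁ z) - z.1 / 2 * (p₂ z - p₁ z) =
        -(A z * X₀ + B z * X₁) + ((z.1 / 2 : ℝ) : ℂ) *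
          (A z * Y₀ + B z * Y₁ + (A z + B z - 1) * (p₂ z - p₁ z)) := by
      simp only [L, Φ] at e
      simp only [hX₀, hX₁, hY₀, hY₁, O.g0, hD]
      push_cast
      linear_combination e
    rw [id]
    have b4 : ‖A z * X₀‖ ≤ ‖A z‖ * (4 * N * ‖D‖) := by rw [norm_mul]; gcongr
    have b5 : ‖A z * Y₀‖ ≤ ‖A z‖ * (1 / 400 * ‖D‖) := by rw [norm_mul]; gcongr
    have b6 : ‖(A z + B z - 1) * (p₂ z - p₁ z)‖ ≤ 1 / 200 * ‖p₂ z - p₁ z‖ := by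
      rw [norm_mul]; gcongr; linarith [hε.2]
    have nD := norm_W (f₂ z - f₁ z) (p₂ z - p₁ z) (q₂ z - q₁ z)
    rw [← hD] at nD
    have d0 := norm_nonneg D
    have N0 : 0 ≤ N := by linarith
    have b7 : ‖-(A z * X₀ + B z * X₁)‖ ≤ 8 * N * ‖D‖ := by
      rw [norm_neg]
      have := mul_le_mul_of_nonneg_right a1 (mul_nonneg N0 d0)
      linarith only [norm_add_le (A z * X₀) (B z * X₁), b3.1, b4, this]
    have b8 : ‖A z * Y₀ + B z * Y₁ + (A z + B z - 1) * (p₂ z - p₁ z)‖ ≤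
        1 / 200 * ‖D‖ + 1 / 200 * ‖p₂ z - p₁ z‖ := by
      have := mul_le_mul_of_nonneg_right a1 d0
      linarith only [norm_add₃_le (a := A z * Y₀) (b := B z * Y₁)
        (c := (A z + B z - 1) * (p₂ z - p₁ z)), b3.2, b5, b6, this]
    refine (norm_add_le _ _).trans ?_
    rw [norm_mul, Complex.norm_real, Real.norm_of_nonneg (by linarith only [hx])]
    have b9 := mul_le_mul_of_nonneg_left b8 (show 0 ≤ z.1 / 2 by linarith only [hx])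
    have b10 := mul_le_mul_of_nonneg_left nD N0
    have b11 := mul_le_mul_of_nonneg_left nD hx
    have b12 : z.1 * ‖f₂ z - f₁ z‖ ≤ N * (z.1 * ‖f₂ z - f₁ z‖) :=
      le_mul_of_one_le_left (by positivity) (by linarith only [N1, K2])
    linarith only [b7, b9, b10, b11, b12, mul_nonneg hx (norm_nonneg (q₂ z - q₁ z)),
      mul_nonneg hx (norm_nonneg (f₂ z - f₁ z))]

end Op

end Crest.Agent.N250.Mt

end
end

-- ▼ part N250/Mt/PR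

/-!
# Row 250, matching (helper74): the shrinker operator in the polar chart
-/

set_option autoImplicit false
open MeasureTheory Set Filter Topology Metric

noncomputable section

namespace Crest.Agent.N250.Mt

open Po

/-- `C^n` on `R < x`, `C^(n-1)` up to `x = R`, periodic -/
structure Cn (n : ℕ) (R : ℝ) (f : ℝ × ℝ → ℂ) : Prop where
  cl : ContDiffOn ℝ (n - 1 : ℕ) f {z | R ≤ z.1}
  op : ContDiffOn ℝ n f {z | R < z.1}
  per : ∀ x θ, R < x → f (x, θ + 2 * Real.pi) = f (x, θ)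

theorem isOpen_half (R : ℝ) : IsOpen {z : ℝ × ℝ | R < z.1} := isOpen_lt continuous_const continuous_fst

theorem uniq_half (R : ℝ) : UniqueDiffOn ℝ {z : ℝ × ℝ | R ≤ z.1} := by
  have : {z : ℝ × ℝ | R ≤ z.1} = Ici R ×ˢ univ := by ext z; simp
  rw [this]
  exact (uniqueDiffOn_Ici R).prod uniqueDiffOn_univ

theorem hx_of {f : ℝ × ℝ → ℂ} {z : ℝ × ℝ} (h : DifferentiableAt ℝ f z) :
    HasDerivAt (fun s => f (s, z.2)) (d1 f z) z.1 :=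
  h.hasFDerivAt.comp_hasDerivAt z.1 ((hasDerivAt_id z.1).prodMk (hasDerivAt_const z.1 z.2))

theorem hy_of {f : ℝ × ℝ → ℂ} {x θ : ℝ} (h : DifferentiableAt ℝ f (x, θ)) :
    HasDerivAt (fun s => f (x, s)) (d2 f (x, θ)) θ :=
  h.hasFDerivAt.comp_hasDerivAt θ ((hasDerivAt_const θ x).prodMk (hasDerivAt_id θ))

theorem per_fd {R : ℝ} {f : ℝ × ℝ → ℂ} (h : ∀ x θ, R < x → f (x, θ + 2 * Real.pi) = f (x, θ))
    {x : ℝ} (hx : R < x) (θ : ℝ) : fderiv ℝ f (x, θ + 2 * Real.pi) = fderiv ℝ f (x, θ) := by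
  have e : (fun z : ℝ × ℝ => f (z + (0, 2 * Real.pi))) =ᶠ[𝓝 (x, θ)] f := by
    filter_upwards [(isOpen_half R).mem_nhds (show (x, θ) ∈ {z : ℝ × ℝ | R < z.1} from hx)] with z hz
    rw [← h z.1 z.2 hz]
    congr 1
    ext <;> simp
  rw [← e.fderiv_eq, fderiv_comp_add_right]
  simp

theorem cd_fd {n : ℕ} {f : ℝ × ℝ → ℂ} {s : Set (ℝ × ℝ)} (hs : IsOpen s)
    (h : ContDiffOn ℝ (n + 1 : ℕ) f s) (w : ℝ × ℝ) : ContDiffOn ℝ n (fun z => fderiv ℝ f z w) s :=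
  (h.fderiv_of_isOpen hs (by simp)).clm_apply contDiffOn_const

theorem Cn.j1 {R : ℝ} {f : ℝ × ℝ → ℂ} (h : Cn 1 R f) : J1 R f (d1 f) (d2 f) := by
  have df : ∀ z : ℝ × ℝ, R < z.1 → DifferentiableAt ℝ f z := fun z hz =>
    (h.op.contDiffAt ((isOpen_half R).mem_nhds hz)).differentiableAt (by simp)
  exact ⟨h.cl.continuousOn.mono fun _ hz => hz.1,
    (cd_fd (n := 0) (isOpen_half R) h.op _).continuousOn.mono fun _ hz => hz.1,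
    (cd_fd (n := 0) (isOpen_half R) h.op _).continuousOn.mono fun _ hz => hz.1,
    fun z hz => hx_of (df z hz.1), fun x hx θ _ => hy_of (df _ hx),
    fun x hx => by simpa using h.per x 0 hx⟩

/-- first derivatives up to the boundary -/
def dw (R : ℝ) (f : ℝ × ℝ → ℂ) (w z : ℝ × ℝ) : ℂ := fderivWithin ℝ f {z | R ≤ z.1} z w

theorem dw_eq {R : ℝ} (f : ℝ × ℝ → ℂ) (w : ℝ × ℝ) {z : ℝ × ℝ} (hz : R < z.1) :
    dw R f w z = fderiv ℝ f z w := by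
  rw [dw, fderivWithin_of_mem_nhds (s := {z : ℝ × ℝ | R ≤ z.1})
    (mem_of_superset ((isOpen_half R).mem_nhds hz) fun y hy => le_of_lt (α := ℝ) hy)]

theorem Cn.jt {R : ℝ} {f : ℝ × ℝ → ℂ} (h : Cn 2 R f) : Jt R f (dw R f (1, 0)) (dw R f (0, 1))
    (d1 (d1 f)) (d1 (d2 f)) (d2 (d2 f)) := by
  have o := isOpen_half R
  have c2 : ∀ z : ℝ × ℝ, R < z.1 → ContDiffAt ℝ 2 f z := fun z hz => h.op.contDiffAt (o.mem_nhds hz)
  have df : ∀ z : ℝ × ℝ, R < z.1 → DifferentiableAt ℝ f z := fun z hz =>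
    (c2 z hz).differentiableAt (by simp)
  have cw : ∀ w, ContinuousOn (dw R f w) (Hc R) := fun w =>
    ((h.cl.continuousOn_fderivWithin (uniq_half R) (by simp)).clm_apply continuousOn_const).mono
      fun _ hz => hz.1
  have c1 : ∀ w w', ContinuousOn (fun z => fderiv ℝ (fun y => fderiv ℝ f y w) z w') (Ho R) :=
    fun w w' => (cd_fd (n := 0) o (cd_fd (n := 1) o h.op w) w').continuousOn.mono fun _ hz => hz.1
  have ex : ∀ w, ∀ z ∈ Ho R, HasDerivAt (fun s => dw R f w (s, z.2))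
      (d1 (fun y => fderiv ℝ f y w) z) z.1 := fun w z hz =>
    (hx_of (diff_fd (c2 z hz.1) w)).congr_of_eventuallyEq
      ((lt_mem_nhds hz.1).mono fun s hs => dw_eq f w hs)
  have ey : ∀ w x, R < x → ∀ θ, HasDerivAt (fun s => dw R f w (x, s))
      (d2 (fun y => fderiv ℝ f y w) (x, θ)) θ := fun w x hx θ =>
    (hy_of (diff_fd (c2 _ hx) w)).congr_of_eventuallyEq
      (Eventually.of_forall fun s => dw_eq f w hx)
  have pw : ∀ w, Pe R (dw R f w) := fun w x hx => by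
    rw [dw_eq f w hx, dw_eq f w hx, ← per_fd h.per hx 0, zero_add]
  refine ⟨h.cl.continuousOn.mono fun _ hz => hz.1, cw _, cw _, c1 _ _, c1 _ _, c1 _ _,
    fun z hz => ?_, fun x hx θ _ => ?_, ex _, ex _, fun x hx θ _ => ?_, fun x hx θ _ => ey _ x hx θ,
    fun x hx => by simpa using h.per x 0 hx, pw _, pw _⟩
  · rw [dw_eq f _ hz.1]; exact hx_of (df z hz.1)
  · rw [dw_eq f _ hx]; exact hy_of (df _ hx)
  · rw [← d21 (c2 _ hx)]; exact ey _ x hx θ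

theorem of_Hc {R : ℝ} {f g : ℝ × ℝ → ℂ} {n k : ℕ} (hf : Cn n R f) (hg : Cn k R g)
    (h0 : ∀ θ, f (R, θ) = g (R, θ)) (h : ∀ z ∈ Hc R, f z = g z) (z : ℝ × ℝ) (hz : R ≤ z.1) :
    f z = g z := by
  obtain ⟨x, θ⟩ := z
  rcases eq_or_lt_of_le (show R ≤ x from hz) with rfl | hx
  · exact h0 θ
  have p : Function.Periodic (fun θ => f (x, θ) - g (x, θ)) (2 * Real.pi) := fun θ => by
    simp only [hf.per x θ hx, hg.per x θ hx]
  obtain ⟨y, hy, e⟩ := p.exists_mem_Ico₀ Real.two_pi_pos θ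
  exact sub_eq_zero.1 (e.trans (sub_eq_zero.2 (h (x, y) ⟨hz, Ico_subset_Icc_self hy⟩)))

/-- the 1-jet -/
def j1 (f : ℝ × ℝ → ℂ) (z : ℝ × ℝ) : W := (f z, d1 f z, d2 f z)

/-- the second derivatives -/
def j2 (f : ℝ × ℝ → ℂ) (z : ℝ × ℝ) : W := (d1 (d1 f) z, d1 (d2 f) z, d2 (d2 f) z)

/-- the 1-jet is `ε`-close to the constant `c`, the second derivatives are at most `C` -/
def Nr (c : ℂ) (ε C : ℝ) (f : ℝ × ℝ → ℂ) (z : ℝ × ℝ) : Prop :=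
  ‖f z - c‖ ≤ ε ∧ ‖d1 f z‖ ≤ ε ∧ ‖d2 f z‖ ≤ ε ∧
    ‖d1 (d1 f) z‖ ≤ C ∧ ‖d1 (d2 f) z‖ ≤ C ∧ ‖d2 (d2 f) z‖ ≤ C

theorem Nr.sm {c : ℂ} {ε C : ℝ} {f : ℝ × ℝ → ℂ} {z : ℝ × ℝ} (h : Nr c ε C f z) :
    Op.Sm (c, 0, 0) ε C (j1 f z) (j2 f z) := by
  simpa only [Nr, Op.Sm, j1, j2, Prod.mk_sub_mk, sub_zero, Prod.norm_mk, max_le_iff, and_assoc] using h

/-- the coefficients `A`, `B` -/
def Cf (ε C : ℝ) (A B : ℝ × ℝ → ℂ) (z : ℝ × ℝ) : Prop :=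
  ‖A z‖ + ‖B z‖ ≤ 2 ∧ ‖A z + B z - 1‖ ≤ ε ∧ ‖d1 A z‖ ≤ C ∧ ‖d2 A z‖ ≤ C ∧ ‖d1 B z‖ ≤ C ∧ ‖d2 B z‖ ≤ C

theorem Op.mt' {c : ℂ} (O : Op (c, 0, 0)) : ∃ ε : ℝ, 0 < ε ∧ ∀ C : ℝ, ∃ R₁ : ℝ, ∀ R, R₁ ≤ R →
    ∀ f₀ f₁ f₂ A B : ℝ × ℝ → ℂ, Cn 2 R f₀ → Cn 2 R f₁ → Cn 2 R f₂ → Cn 1 R A → Cn 1 R B →
    (∀ z : ℝ × ℝ, R < z.1 → Cf ε C A B z) → (∀ z : ℝ × ℝ, R < z.1 → Nr c ε C f₀ z) →
    (∀ z : ℝ × ℝ, R < z.1 → (B z = 0 ∧ d1 B z = 0 ∧ d2 B z = 0) ∨ (Nr c ε C f₁ z ∧ Nr c ε C f₂ z)) →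
    (∀ θ, f₂ (R, θ) = f₁ (R, θ)) →
    (Lo fun z => ‖f₂ z - f₁ z‖ * (‖d1 f₂ z - d1 f₁ z‖ + ‖d2 f₂ z - d2 f₁ z‖)) →
    (∀ z : ℝ × ℝ, R < z.1 → A z * O.L z.1 (j1 f₀ z) (j2 f₀ z) (j1 f₂ z - j1 f₁ z)
      (j2 f₂ z - j2 f₁ z) + B z * (O.Φ z.1 (j1 f₂ z) (j2 f₂ z) - O.Φ z.1 (j1 f₁ z) (j2 f₁ z)) = 0) →
    ∀ z : ℝ × ℝ, R ≤ z.1 → f₂ z = f₁ z := by
  obtain ⟨ε, hε, h⟩ := O.mt
  refine ⟨ε, hε, fun C => ?_⟩
  obtain ⟨R₁, h⟩ := h C
  refine ⟨R₁, fun R hR f₀ f₁ f₂ A B h₀ h₁ h₂ hA hB cf n₀ n₁ bd lo eq => of_Hc h₂ h₁ bd ?_⟩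
  have e : ∀ (f : ℝ × ℝ → ℂ) {z : ℝ × ℝ}, z ∈ Ho R →
      dw R f (1, 0) z = d1 f z ∧ dw R f (0, 1) z = d2 f z := fun f _ hz =>
    ⟨dw_eq f _ hz.1, dw_eq f _ hz.1⟩
  refine h R hR h₀.jt h₁.jt h₂.jt hA.j1 hB.j1 (fun z hz => cf z hz.1) (fun z hz => ?_)
    (fun z hz => ?_) (fun θ _ => bd θ) (lo.mono (R := R) one_pos fun z hz => ?_) fun z hz => ?_
  · rw [(e _ hz).1, (e _ hz).2]; exact (n₀ z hz.1).sm
  · simp only [(e _ hz).1, (e _ hz).2]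
    exact (n₁ z hz.1).imp id fun h => ⟨h.1.sm, h.2.sm⟩
  · simp only [(e _ hz).1, (e _ hz).2, one_mul, le_refl]
  · simp only [(e _ hz).1, (e _ hz).2]
    exact eq z hz.1

/-! ### the unknown `r` -/

theorem s2 : ((√2 : ℝ) : ℂ) ^ 2 = 2 := by
  rw [← Complex.ofReal_pow, Real.sq_sqrt zero_le_two]; rfl

/-- `√2 / 4 = (2 √2)⁻¹` -/
def k2 : ℂ := ((√2 : ℝ) : ℂ) / 4


theorem fd_mul {m : W → ℂ} (hm : ContDiff ℂ 1 m) (c : ℂ) (h : m (c, 0, 0) = 1) (D : W) :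
    fderiv ℂ (fun j : W => j.2.1 * m j) (c, 0, 0) D = D.2.1 := by
  have h1 : HasFDerivAt (fun j : W => j.2.1) _ ((c, 0, 0) : W) :=
    (hasFDerivAt_snd (𝕜 := ℂ)).fst
  rw [(h1.fun_mul (hm.differentiable one_ne_zero _).hasFDerivAt).fderiv]
  simp [h]

/-- `k2 * PR` -/
def opR : Op (((√2 : ℝ) : ℂ), 0, 0) where
  a j := k2 * (j.1 * (j.1 ^ 2 + j.2.2 ^ 2))
  b j := k2 * (-2 * j.1 * j.2.1 * j.2.2)
  c j := k2 * (j.1 * (1 + j.2.1 ^ 2))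
  e j := k2 * (2 * j.2.1 ^ 2 * j.2.2 ^ 2 - (1 + j.2.1 ^ 2) * (j.1 ^ 2 + 2 * j.2.2 ^ 2) +
    (j.1 ^ 2 + (j.1 * j.2.1) ^ 2 + j.2.2 ^ 2) * j.1 ^ 2 / 2)
  g j := j.2.1 * (k2 * (j.1 * (j.1 ^ 2 + (j.1 * j.2.1) ^ 2 + j.2.2 ^ 2)))
  ha := by fun_prop
  hb := by fun_prop
  hc := by fun_prop
  he := by fun_prop
  hg := by fun_prop
  a0 := by simp only [k2]; linear_combination (((√2 : ℝ) : ℂ) ^ 2 + 2) / 4 * s2
  b0 := by simp
  c0 := by simp only [k2]; linear_combination s2 / 4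
  g0 := fd_mul (by fun_prop) _ (by
    simp only [k2]; linear_combination (((√2 : ℝ) : ℂ) ^ 2 + 2) / 4 * s2)

/-- `Po.PR` on jets -/
def PRj (x : ℂ) (j k : W) : ℂ := PR x j.1 j.2.1 j.2.2 k.1 k.2.1 k.2.2

theorem opR_Φ (x : ℂ) (j k : W) : opR.Φ x j k = k2 * PRj x j k := by
  simp only [Op.Φ, opR, PRj, PR]; ring

/-- the linearisation of `Po.PR` -/
def PL (x : ℂ) (j k D K : W) : ℂ := deriv (fun s : ℂ => PRj x (j + s • D) (k + s • K)) 0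

theorem hasDerivAt_PR (x : ℂ) (j k D K : W) :
    HasDerivAt (fun s : ℂ => PRj x (j + s • D) (k + s • K)) (PL x j k D K) 0 := by
  refine DifferentiableAt.hasDerivAt ?_
  simp only [PRj, PR]
  fun_prop

theorem opR_L (x : ℂ) (j k D K : W) : opR.L x j k D K = k2 * PL x j k D K := by
  have h := opR.hasDerivAt x j k D K
  simp only [opR_Φ] at h
  exact h.unique ((hasDerivAt_PR x j k D K).const_mul k2)

/-- **matching in the unknown `r`** -/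
theorem match_r : ∃ ε : ℝ, 0 < ε ∧ ∀ C : ℝ, ∃ R₁ : ℝ, ∀ R, R₁ ≤ R →
    ∀ r₀ r₁ r₂ A B : ℝ × ℝ → ℂ, Cn 2 R r₀ → Cn 2 R r₁ → Cn 2 R r₂ → Cn 1 R A → Cn 1 R B →
    (∀ z : ℝ × ℝ, R < z.1 → Cf ε C A B z) → (∀ z : ℝ × ℝ, R < z.1 → Nr (√2 : ℝ) ε C r₀ z) →
    (∀ z : ℝ × ℝ, R < z.1 → (B z = 0 ∧ d1 B z = 0 ∧ d2 B z = 0) ∨
      (Nr (√2 : ℝ) ε C r₁ z ∧ Nr (√2 : ℝ) ε C r₂ z)) →
    (∀ θ, r₂ (R, θ) = r₁ (R, θ)) →
    (Lo fun z => ‖r₂ z - r₁ z‖ * (‖d1 r₂ z - d1 r₁ z‖ + ‖d2 r₂ z - d2 r₁ z‖)) →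
    (∀ z : ℝ × ℝ, R < z.1 → A z * PL z.1 (j1 r₀ z) (j2 r₀ z) (j1 r₂ z - j1 r₁ z)
      (j2 r₂ z - j2 r₁ z) + B z * (PRj z.1 (j1 r₂ z) (j2 r₂ z) - PRj z.1 (j1 r₁ z) (j2 r₁ z)) = 0) →
    ∀ z : ℝ × ℝ, R ≤ z.1 → r₂ z = r₁ z := by
  obtain ⟨ε, hε, h⟩ := opR.mt'
  refine ⟨ε, hε, fun C => ?_⟩
  obtain ⟨R₁, h⟩ := h C
  refine ⟨R₁, fun R hR f₀ f₁ f₂ A B h₀ h₁ h₂ hA hB cf n₀ n₁ bd lo eq =>
    h R hR f₀ f₁ f₂ A B h₀ h₁ h₂ hA hB cf n₀ n₁ bd lo fun z hz => ?_⟩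
  rw [opR_L, opR_Φ, opR_Φ]
  linear_combination k2 * eq z hz

/-! ### the unknown `v` -/







theorem Cn.const (n : ℕ) (R : ℝ) (c : ℂ) : Cn n R fun _ => c :=
  ⟨contDiffOn_const, contDiffOn_const, fun _ _ _ => rfl⟩

theorem Op.jac {c : ℂ} (O : Op (c, 0, 0)) : ∃ ε : ℝ, 0 < ε ∧ ∀ C : ℝ, ∃ R₁ : ℝ, ∀ R, R₁ ≤ R →
    ∀ f d : ℝ × ℝ → ℂ, Cn 2 R f → Cn 2 R d → (∀ z : ℝ × ℝ, R < z.1 → Nr c ε C f z) →
    (∀ θ, d (R, θ) = 0) → (Lo fun z => ‖d z‖ * (‖d1 d z‖ + ‖d2 d z‖)) →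
    (∀ z : ℝ × ℝ, R < z.1 → O.L z.1 (j1 f z) (j2 f z) (j1 d z) (j2 d z) = 0) →
    ∀ z : ℝ × ℝ, R ≤ z.1 → d z = 0 := by
  obtain ⟨ε, hε, h⟩ := O.mt'
  refine ⟨ε, hε, fun C => ?_⟩
  obtain ⟨R₁, h⟩ := h C
  have z1 : d1 (fun _ : ℝ × ℝ => (0 : ℂ)) = fun _ => 0 := by funext z; simp [d1]
  have z2 : d2 (fun _ : ℝ × ℝ => (0 : ℂ)) = fun _ => 0 := by funext z; simp [d2]
  refine ⟨R₁, fun R hR f d hf hd n bd lo eq => h R hR f (fun _ => 0) d (fun _ => 1) (fun _ => 0) hf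
    (Cn.const _ _ _) hd (Cn.const _ _ _) (Cn.const _ _ _) (fun z hz => ?_) n
    (fun z _ => Or.inl ⟨rfl, by rw [z1], by rw [z2]⟩) bd (by simpa only [z1, z2, sub_zero] using lo)
    fun z hz => ?_⟩
  · have hC : 0 ≤ C := (norm_nonneg _).trans (n z hz).2.2.2.1
    simp [Cf, d1, d2, hC, hε.le]
  · have e1 : j1 (fun _ => 0) z = 0 := by simp only [j1, z1, z2]; rfl
    have e2 : j2 (fun _ => 0) z = 0 := by simp only [j2, z1, z2]; rfl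
    rw [e1, e2, sub_zero, sub_zero, eq z hz]
    ring




end Crest.Agent.N250.Mt

end
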